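import Vale.Agent.P040.Sph56.Defs

/-!
# The pencil parity lemma

Among the great circles through a generic point `z` and one of the `2k+1` reds an odd number is halving.
-/

namespace Vale.Agent.P040.Sph69

open Finset Vale.Agent.P040.Sph56

/-- level (without the pivot) of the pencil at the element `p` -/
noncomputable def gg (F : Finset ℕ) (nu : ℕ → ℝ) (sg : ℕ → Bool) (p : ℕ) : ℕ :=
  (F.filter fun q => if sg q = true then nu p < nu q else nu q < nu p).card

/-- the abstract walk lemma: the number of steps between the levels `j` and `j+1` -/
theorem walk_parity (nu : ℕ → ℝ) (sg : ℕ → Bool) (F : Finset ℕ) :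
    Set.InjOn nu F → ∀ j : ℕ,
      ((F.filter fun p => gg F nu sg p = j).card
        + (if j < (F.filter fun q => sg q = true).card then 1 else 0)
        + (if j < (F.filter fun q => sg q = false).card then 1 else 0)) % 2 = 0 := by
  classical
  refine Finset.induction_on_max_value nu (motive := fun F => Set.InjOn nu F → ∀ j : ℕ,
      ((F.filter fun p => gg F nu sg p = j).card
        + (if j < (F.filter fun q => sg q = true).card then 1 else 0)
        + (if j < (F.filter fun q => sg q = false).card then 1 else 0)) % 2 = 0) F ?_ ?_
  · intro _ j
    simp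
  · intro m F hm hmax ih hinj j
    have hinjF : Set.InjOn nu F := hinj.mono (by
      intro x hx
      simp only [coe_insert, Set.mem_insert_iff, mem_coe]
      exact Or.inr hx)
    have hlt : ∀ x ∈ F, nu x < nu m := by
      intro x hx
      refine lt_of_le_of_ne (hmax x hx) ?_
      intro h
      have : x = m := hinj (by simp [hx]) (by simp) h
      exact hm (this ▸ hx)
    have ih := ih hinjF
    -- value at m
    have hgm : gg (insert m F) nu sg m = (F.filter fun q => sg q = false).card := by
      unfold gg
      rw [filter_insert]
      have h1 : ¬ (if sg m = true then nu m < nu m else nu m < nu m) := by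
        split_ifs <;> exact lt_irrefl _
      rw [if_neg h1]
      congr 1
      apply filter_congr
      intro q hq
      have := hlt q hq
      by_cases hs : sg q = true
      · simp [hs, not_lt.mpr this.le]
      · have hs' : sg q = false := by simpa using hs
        simp [hs', this]
    -- value at p in F
    have hgp : ∀ p ∈ F, gg (insert m F) nu sg p = gg F nu sg p + (if sg m = true then 1 else 0) := by
      intro p hp
      unfold gg
      rw [filter_insert]
      have := hlt p hp
      by_cases hs : sg m = true
      · simp only [hs, if_true, this]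
        rw [card_insert_of_notMem]
        intro h
        exact hm (mem_filter.mp h).1
      · simp only [hs, not_lt.mpr this.le]
        simp
    have hcount : ((insert m F).filter fun p => gg (insert m F) nu sg p = j).card
        = (if (F.filter fun q => sg q = false).card = j then 1 else 0)
          + (F.filter fun p => gg F nu sg p + (if sg m = true then 1 else 0) = j).card := by
      rw [filter_insert, hgm]
      have hc : (F.filter fun p => gg (insert m F) nu sg p = j)
          = (F.filter fun p => gg F nu sg p + (if sg m = true then 1 else 0) = j) := by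
        apply filter_congr
        intro p hp
        rw [hgp p hp]
      rw [hc]
      by_cases h1 : (F.filter fun q => sg q = false).card = j
      · rw [if_pos h1, if_pos h1, card_insert_of_notMem, add_comm]
        intro h
        exact hm (mem_filter.mp h).1
      · rw [if_neg h1, if_neg h1, zero_add]
    rw [hcount]
    by_cases hs : sg m = true
    · have hp : ((insert m F).filter fun q => sg q = true).card
          = (F.filter fun q => sg q = true).card + 1 := by
        rw [filter_insert, if_pos hs, card_insert_of_notMem]
        intro h
        exact hm (mem_filter.mp h).1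
      have hn : ((insert m F).filter fun q => sg q = false).card
          = (F.filter fun q => sg q = false).card := by
        rw [filter_insert, if_neg (by simp [hs])]
      rw [hp, hn]
      simp only [if_pos hs]
      cases j with
      | zero =>
        have : (F.filter fun p => gg F nu sg p + 1 = 0) = ∅ := by
          apply filter_eq_empty_iff.mpr
          intro p _
          omega
        rw [this]
        simp only [card_empty]
        split_ifs <;> omega
      | succ j' =>
        have : (F.filter fun p => gg F nu sg p + 1 = j' + 1) = (F.filter fun p => gg F nu sg p = j') := by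
          apply filter_congr
          intro p _
          omega
        rw [this]
        have := ih j'
        revert this
        split_ifs <;> omega
    · have hs' : sg m = false := by simpa using hs
      have hp : ((insert m F).filter fun q => sg q = true).card
          = (F.filter fun q => sg q = true).card := by
        rw [filter_insert, if_neg hs]
      have hn : ((insert m F).filter fun q => sg q = false).card
          = (F.filter fun q => sg q = false).card + 1 := by
        rw [filter_insert, if_pos hs', card_insert_of_notMem]
        intro h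
        exact hm (mem_filter.mp h).1
      rw [hp, hn]
      simp only [if_neg hs, add_zero]
      have := ih j
      revert this
      split_ifs <;> omega

/-- a vector outside finitely many planes through the origin -/
theorem exists_generic (S : Finset V3) (h : ∀ a ∈ S, a ≠ 0) : ∃ e : V3, ∀ a ∈ S, dot a e ≠ 0 := by
  classical
  let P : V3 → Polynomial ℝ := fun a =>
    Polynomial.C a.1 + Polynomial.C a.2.1 * Polynomial.X + Polynomial.C a.2.2 * Polynomial.X ^ 2
  have hP : ∀ a ∈ S, P a ≠ 0 := by
    intro a ha h0
    apply h a ha
    have e0 := congrArg (Polynomial.eval 0) h0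
    have e1 := congrArg (Polynomial.eval 1) h0
    have e2 := congrArg (Polynomial.eval (-1)) h0
    simp only [P, Polynomial.eval_add, Polynomial.eval_mul, Polynomial.eval_C, Polynomial.eval_X,
      Polynomial.eval_pow, Polynomial.eval_zero] at e0 e1 e2
    have a1 : a.1 = 0 := by nlinarith
    have a2 : a.2.1 = 0 := by nlinarith
    have a3 : a.2.2 = 0 := by nlinarith
    exact Prod.ext a1 (Prod.ext a2 a3)
  have hprod : (∏ a ∈ S, P a) ≠ 0 := Finset.prod_ne_zero_iff.mpr hP
  have hex : ∃ t : ℝ, Polynomial.eval t (∏ a ∈ S, P a) ≠ 0 := by
    by_contra hcon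
    simp only [not_exists, not_not] at hcon
    apply hprod
    apply Polynomial.eq_zero_of_infinite_isRoot
    have : {x | Polynomial.IsRoot (∏ a ∈ S, P a) x} = Set.univ := by
      ext x
      simp [Polynomial.IsRoot, hcon x]
    rw [this]
    exact Set.infinite_univ
  obtain ⟨t, ht⟩ := hex
  refine ⟨(1, t, t ^ 2), ?_⟩
  intro a ha h0
  apply ht
  rw [Polynomial.eval_prod]
  apply Finset.prod_eq_zero ha
  simp only [P, Polynomial.eval_add, Polynomial.eval_mul, Polynomial.eval_C, Polynomial.eval_X,
    Polynomial.eval_pow]
  unfold dot at h0
  simp only at h0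
  linarith

theorem det3_eq_dot_crs (a b c : V3) : det3 a b c = dot (crs a b) c := by
  unfold det3 dot crs
  ring

theorem det3_self_right (a b : V3) : det3 a b b = 0 := by
  unfold det3
  ring

theorem det3_swap_right (a b c : V3) : det3 a c b = - det3 a b c := by
  unfold det3
  ring

/-- three term relation for determinants with a common first vector -/
theorem det3_gp (z x q r d : V3) :
    det3 z x d * det3 z q r = det3 z x r * det3 z q d - det3 z x q * det3 z r d := by
  unfold det3
  ring

/-- **Pencil parity.**  Among the great circles through a generic `z` and a red an odd number is halving. -/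
theorem odd_halving_pencil (k : ℕ) (r : ℕ → V3) (z : V3)
    (hz : ∀ i < 2 * k + 1, ∀ j < 2 * k + 1, i ≠ j → det3 z (r i) (r j) ≠ 0) :
    Odd ((range (2 * k + 1)).filter (fun u =>
      ((range (2 * k + 1)).filter (fun j => 0 < det3 z (r u) (r j))).card = k)).card := by
  classical
  rcases Nat.eq_zero_or_pos k with rfl | hk
  · have h0 : ((range (2 * 0 + 1)).filter (fun u =>
        ((range (2 * 0 + 1)).filter (fun j => 0 < det3 z (r u) (r j))).card = 0)) = {0} := by
      ext u
      simp only [mul_zero, zero_add, range_one, mem_filter, mem_singleton, card_eq_zero]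
      constructor
      · exact fun h => h.1
      · rintro rfl
        refine ⟨rfl, ?_⟩
        apply filter_eq_empty_iff.mpr
        intro j hj
        rw [mem_singleton.mp hj, det3_self_right]
        exact lt_irrefl _
    rw [h0]
    simp
  obtain ⟨d, hd⟩ := exists_generic ((range (2 * k + 1)).image fun p => crs z (r p)) (by
    intro a ha
    obtain ⟨p, hp, rfl⟩ := mem_image.mp ha
    have hp' := mem_range.mp hp
    obtain ⟨j, hj, hjp⟩ : ∃ j < 2 * k + 1, p ≠ j := by
      by_cases h0 : p = 0
      · exact ⟨1, by omega, by omega⟩
      · exact ⟨0, by omega, h0⟩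
    intro h0
    apply hz p hp' j hj hjp
    rw [det3_eq_dot_crs, h0]
    simp [dot])
  have hd' : ∀ p < 2 * k + 1, det3 z (r p) d ≠ 0 := by
    intro p hp
    rw [det3_eq_dot_crs]
    exact hd _ (mem_image_of_mem _ (mem_range.mpr hp))
  obtain ⟨x0, hK⟩ : ∃ x0 : V3, 0 < det3 z x0 d := by
    refine ⟨crs d z, ?_⟩
    have h1 : det3 z (crs d z) d = dot (crs d z) (crs d z) := by
      unfold det3 dot crs
      ring
    have h2 : det3 z (r 0) d = dot (r 0) (crs d z) := by
      unfold det3 dot crs
      ring
    have h3 := hd' 0 (by omega)
    rw [h2] at h3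
    rw [h1]
    generalize crs d z = x at h3 ⊢
    unfold dot at h3 ⊢
    by_contra hneg
    have hsq : x.1 = 0 ∧ x.2.1 = 0 ∧ x.2.2 = 0 := by
      refine ⟨?_, ?_, ?_⟩ <;> nlinarith [sq_nonneg x.1, sq_nonneg x.2.1, sq_nonneg x.2.2]
    apply h3
    rw [hsq.1, hsq.2.1, hsq.2.2]
    ring
  set F : Finset ℕ := range (2 * k + 1) with hF
  let nu : ℕ → ℝ := fun q => det3 z x0 (r q) / det3 z (r q) d
  let sg : ℕ → Bool := fun q => decide (0 < det3 z (r q) d)
  have hkey : ∀ q < 2 * k + 1, ∀ s < 2 * k + 1,
      det3 z x0 d * det3 z (r q) (r s) = det3 z (r q) d * det3 z (r s) d * (nu s - nu q) := by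
    intro q hq s hs
    have h1 := hd' q hq
    have h2 := hd' s hs
    rw [det3_gp]
    simp only [nu]
    field_simp
  have hpos : ∀ q < 2 * k + 1, ∀ s < 2 * k + 1,
      (0 < det3 z (r q) (r s) ↔ 0 < det3 z (r q) d * det3 z (r s) d * (nu s - nu q)) := by
    intro q hq s hs
    rw [← hkey q hq s hs, mul_pos_iff_of_pos_left hK]
  have hne : ∀ q < 2 * k + 1, ∀ s < 2 * k + 1, q ≠ s → nu q ≠ nu s := by
    intro q hq s hs hqs h
    apply hz q hq s hs hqs
    have := hkey q hq s hs
    rw [h, sub_self, mul_zero] at this
    rcases mul_eq_zero.mp this with h0 | h0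
    · exact absurd h0 hK.ne'
    · exact h0
  have hinj : Set.InjOn nu F := by
    intro q hq s hs h
    by_contra hqs
    exact hne q (by simpa [hF] using hq) s (by simpa [hF] using hs) hqs h
  -- the sign rule
  have hrule : ∀ u < 2 * k + 1, ∀ j < 2 * k + 1, j ≠ u →
      ((0 < det3 z (r u) (r j)) ↔
        ((sg u = true) ↔ (if sg j = true then nu u < nu j else nu j < nu u))) := by
    intro u hu j hj hju
    rw [hpos u hu j hj]
    have h1 := hd' u hu
    have h2 := hd' j hj
    have h3 : nu j - nu u ≠ 0 := sub_ne_zero.mpr (hne j hj u hu hju)
    simp only [sg, decide_eq_true_eq]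
    rcases lt_or_gt_of_ne h1 with a1 | a1 <;> rcases lt_or_gt_of_ne h2 with a2 | a2 <;>
      rcases lt_or_gt_of_ne h3 with a3 | a3
    · have e1 : 0 < det3 z (r u) d * det3 z (r j) d := mul_pos_of_neg_of_neg a1 a2
      have e2 : ¬ 0 < det3 z (r u) d * det3 z (r j) d * (nu j - nu u) :=
        not_lt.mpr (mul_neg_of_pos_of_neg e1 a3).le
      simp [e2, not_lt.mpr a1.le, not_lt.mpr a2.le, sub_neg.mp a3]
    · have e1 : 0 < det3 z (r u) d * det3 z (r j) d := mul_pos_of_neg_of_neg a1 a2
      have e2 : 0 < det3 z (r u) d * det3 z (r j) d * (nu j - nu u) := mul_pos e1 a3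
      simp [e2, not_lt.mpr a1.le, not_lt.mpr a2.le, not_lt.mpr (sub_pos.mp a3).le]
    · have e1 : det3 z (r u) d * det3 z (r j) d < 0 := mul_neg_of_neg_of_pos a1 a2
      have e2 : 0 < det3 z (r u) d * det3 z (r j) d * (nu j - nu u) := mul_pos_of_neg_of_neg e1 a3
      simp [e2, not_lt.mpr a1.le, a2, not_lt.mpr (sub_neg.mp a3).le]
    · have e1 : det3 z (r u) d * det3 z (r j) d < 0 := mul_neg_of_neg_of_pos a1 a2
      have e2 : ¬ 0 < det3 z (r u) d * det3 z (r j) d * (nu j - nu u) :=
        not_lt.mpr (mul_neg_of_neg_of_pos e1 a3).le
      simp [e2, not_lt.mpr a1.le, a2, sub_pos.mp a3]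
    · have e1 : det3 z (r u) d * det3 z (r j) d < 0 := mul_neg_of_pos_of_neg a1 a2
      have e2 : 0 < det3 z (r u) d * det3 z (r j) d * (nu j - nu u) := mul_pos_of_neg_of_neg e1 a3
      simp [e2, a1, not_lt.mpr a2.le, sub_neg.mp a3]
    · have e1 : det3 z (r u) d * det3 z (r j) d < 0 := mul_neg_of_pos_of_neg a1 a2
      have e2 : ¬ 0 < det3 z (r u) d * det3 z (r j) d * (nu j - nu u) :=
        not_lt.mpr (mul_neg_of_neg_of_pos e1 a3).le
      simp [e2, a1, not_lt.mpr a2.le, not_lt.mpr (sub_pos.mp a3).le]
    · have e1 : 0 < det3 z (r u) d * det3 z (r j) d := mul_pos a1 a2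
      have e2 : ¬ 0 < det3 z (r u) d * det3 z (r j) d * (nu j - nu u) :=
        not_lt.mpr (mul_neg_of_pos_of_neg e1 a3).le
      simp [e2, a1, a2, not_lt.mpr (sub_neg.mp a3).le]
    · have e1 : 0 < det3 z (r u) d * det3 z (r j) d := mul_pos a1 a2
      have e2 : 0 < det3 z (r u) d * det3 z (r j) d * (nu j - nu u) := mul_pos e1 a3
      simp [e2, a1, a2, sub_pos.mp a3]
  have hself : ∀ u, ¬ (if sg u = true then nu u < nu u else nu u < nu u) := by
    intro u
    split_ifs <;> exact lt_irrefl _
  have hscore : ∀ u ∈ F, ((F.filter (fun j => 0 < det3 z (r u) (r j))).card = k ↔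
      gg F nu sg u = k) := by
    intro u huF
    have hu : u < 2 * k + 1 := by simpa [hF] using huF
    by_cases hs : sg u = true
    · have : (F.filter (fun j => 0 < det3 z (r u) (r j)))
          = F.filter fun q => if sg q = true then nu u < nu q else nu q < nu u := by
        apply filter_congr
        intro j hjF
        have hj : j < 2 * k + 1 := by simpa [hF] using hjF
        by_cases hju : j = u
        · subst hju
          rw [det3_self_right]
          exact iff_of_false (lt_irrefl _) (hself j)
        · rw [hrule u hu j hj hju]
          simp [hs]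
      unfold gg
      rw [this]
    · have h1 := card_filter_add_card_filter_not (s := F)
        (fun q => if sg q = true then nu u < nu q else nu q < nu u)
      have h2 : (F.filter fun q => ¬ (if sg q = true then nu u < nu q else nu q < nu u))
          = insert u (F.filter (fun j => 0 < det3 z (r u) (r j))) := by
        ext j
        simp only [mem_filter, mem_insert]
        constructor
        · rintro ⟨hjF, hj2⟩
          have hj : j < 2 * k + 1 := by simpa [hF] using hjF
          by_cases hju : j = u
          · exact Or.inl hju
          · refine Or.inr ⟨hjF, ?_⟩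
            rw [hrule u hu j hj hju]
            simp [hs, hj2]
        · rintro (rfl | ⟨hjF, hj2⟩)
          · exact ⟨huF, hself j⟩
          · have hj : j < 2 * k + 1 := by simpa [hF] using hjF
            have hju : j ≠ u := by
              rintro rfl
              simp [det3_self_right] at hj2
            refine ⟨hjF, ?_⟩
            rw [hrule u hu j hj hju] at hj2
            intro h
            exact hs (hj2.mpr h)
      have h3 : (insert u (F.filter (fun j => 0 < det3 z (r u) (r j)))).card
          = (F.filter (fun j => 0 < det3 z (r u) (r j))).card + 1 := by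
        rw [card_insert_of_notMem]
        intro h
        have := (mem_filter.mp h).2
        simp [det3_self_right] at this
      rw [h2, h3] at h1
      have h4 : F.card = 2 * k + 1 := by simp [hF]
      unfold gg
      omega
  have hfil : (F.filter (fun u => (F.filter (fun j => 0 < det3 z (r u) (r j))).card = k))
      = F.filter fun p => gg F nu sg p = k := by
    apply filter_congr
    intro u hu
    exact hscore u hu
  rw [hfil]
  have hw := walk_parity nu sg F hinj k
  have hsum := card_filter_add_card_filter_not (s := F) (fun q => sg q = true)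
  have hfalse : (F.filter fun q => ¬ sg q = true) = F.filter fun q => sg q = false := by
    apply filter_congr
    intro q _
    simp
  rw [hfalse] at hsum
  have h4 : F.card = 2 * k + 1 := by simp [hF]
  rw [Nat.odd_iff]
  revert hw
  split_ifs <;> omega

end Vale.Agent.P040.Sph69
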